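import Mathlib
import Vale.Agent.Lib.P248.helper37.Q2Defs

/-!
# P248 (helper34): the cone inequality for compact convex sets in the positive orthant

`M ⊆ R^(n+1)` compact, convex, contained in the closed positive orthant (not assumed
down-closed), and `y ∈ M`.  Then `∑ i, y i * |M ∩ {p i = 0}| ≤ (n + 1) * |M|`.

Proof: the cones with apex `y` over the sections `M ∩ {p i = 0}` lie in `M`, the cone over the
`i`-th section has volume at least `y i / (n + 1)` times the volume of the section (slice it by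
the levels of the `i`-th coordinate), and two such cones with `0 < y i`, `0 < y j` meet inside the
hyperplane `p i * y j = p j * y i`, which is a null set.
-/

open MeasureTheory Set

namespace Vale.Agent.Lib.P248.H34

open Vale.Agent.Lib.P248.H37 Vale.Agent.Lib.P248.H37Q

/-- The cone with apex `y` over the section of `M` by the hyperplane `p i = 0`. -/
def coneOver {n : ℕ} (M : Set (Fin (n + 1) → ℝ)) (y : Fin (n + 1) → ℝ) (i : Fin (n + 1)) :
    Set (Fin (n + 1) → ℝ) :=
  (fun q : ℝ × (Fin n → ℝ) =>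
      (1 - q.1) • y + q.1 • (Fin.insertNth i (0 : ℝ) q.2 : Fin (n + 1) → ℝ)) ''
    (Icc (0 : ℝ) 1 ×ˢ sec M i)

lemma ins_restrict {n : ℕ} (i : Fin (n + 1)) (p : Fin (n + 1) → ℝ) (hpi : p i = 0) :
    (Fin.insertNth i (0 : ℝ) (fun k => p (i.succAbove k)) : Fin (n + 1) → ℝ) = p := by
  funext j
  revert j
  rw [i.forall_iff_succAbove]
  exact ⟨by rw [ins_same, hpi], fun k => by rw [ins_succ]⟩

lemma isCompact_sec {n : ℕ} {M : Set (Fin (n + 1) → ℝ)} (hM : IsCompact M) (i : Fin (n + 1)) :
    IsCompact (sec M i) := by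
  have hcl : IsClosed {p : Fin (n + 1) → ℝ | p i = 0} :=
    isClosed_eq (continuous_apply i) continuous_const
  have h1 : IsCompact (M ∩ {p : Fin (n + 1) → ℝ | p i = 0}) := hM.inter_right hcl
  have hcont : Continuous (fun (p : Fin (n + 1) → ℝ) (k : Fin n) => p (i.succAbove k)) :=
    continuous_pi (fun k => continuous_apply (i.succAbove k))
  have e : sec M i = (fun (p : Fin (n + 1) → ℝ) (k : Fin n) => p (i.succAbove k)) ''
      (M ∩ {p : Fin (n + 1) → ℝ | p i = 0}) := by
    ext z
    constructor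
    · intro hz
      refine ⟨Fin.insertNth i (0 : ℝ) z, ⟨hz, ins_same i 0 z⟩, ?_⟩
      funext k
      exact ins_succ i 0 z k
    · rintro ⟨p, ⟨hp, hpi⟩, rfl⟩
      show (Fin.insertNth i (0 : ℝ) (fun k => p (i.succAbove k)) : Fin (n + 1) → ℝ) ∈ M
      rw [ins_restrict i p hpi]
      exact hp
  rw [e]
  exact h1.image hcont

lemma isCompact_coneOver {n : ℕ} {M : Set (Fin (n + 1) → ℝ)} (hM : IsCompact M)
    (y : Fin (n + 1) → ℝ) (i : Fin (n + 1)) : IsCompact (coneOver M y i) := by
  have h2 : Continuous (fun q : ℝ × (Fin n → ℝ) =>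
      (Fin.insertNth i (0 : ℝ) q.2 : Fin (n + 1) → ℝ)) :=
    (continuous_ins i).comp continuous_snd
  have hc : Continuous (fun q : ℝ × (Fin n → ℝ) =>
      (1 - q.1) • y + q.1 • (Fin.insertNth i (0 : ℝ) q.2 : Fin (n + 1) → ℝ)) :=
    ((continuous_const.sub continuous_fst).smul continuous_const).add (continuous_fst.smul h2)
  exact (isCompact_Icc.prod (isCompact_sec hM i)).image hc

lemma coneOver_subset {n : ℕ} {M : Set (Fin (n + 1) → ℝ)} (hconv : Convex ℝ M)
    {y : Fin (n + 1) → ℝ} (hy : y ∈ M) (i : Fin (n + 1)) : coneOver M y i ⊆ M := by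
  rintro _ ⟨⟨t, w⟩, ⟨⟨ht0, ht1⟩, hw⟩, rfl⟩
  have ht0' : (0 : ℝ) ≤ t := ht0
  have ht1' : t ≤ 1 := ht1
  have hw' : (Fin.insertNth i (0 : ℝ) w : Fin (n + 1) → ℝ) ∈ M := hw
  exact hconv hy hw' (by linarith) ht0' (by ring)

lemma coneOver_coords {n : ℕ} {M : Set (Fin (n + 1) → ℝ)} (hnn : ∀ p ∈ M, ∀ i, 0 ≤ p i)
    {y : Fin (n + 1) → ℝ} {i : Fin (n + 1)} {p : Fin (n + 1) → ℝ} (hp : p ∈ coneOver M y i) :
    ∃ t : ℝ, 0 ≤ t ∧ t ≤ 1 ∧ p i = (1 - t) * y i ∧ ∀ j, (1 - t) * y j ≤ p j := by
  obtain ⟨⟨t, w⟩, ⟨⟨ht0, ht1⟩, hw⟩, rfl⟩ := hp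
  have ht0' : (0 : ℝ) ≤ t := ht0
  have ht1' : t ≤ 1 := ht1
  have hw' : (Fin.insertNth i (0 : ℝ) w : Fin (n + 1) → ℝ) ∈ M := hw
  refine ⟨t, ht0', ht1', ?_, fun j => ?_⟩
  · show (1 - t) * y i + t * (Fin.insertNth i (0 : ℝ) w : Fin (n + 1) → ℝ) i = (1 - t) * y i
    rw [ins_same, mul_zero, add_zero]
  · have h1 : 0 ≤ (Fin.insertNth i (0 : ℝ) w : Fin (n + 1) → ℝ) j := hnn _ hw' j
    show (1 - t) * y j ≤ (1 - t) * y j + t * (Fin.insertNth i (0 : ℝ) w : Fin (n + 1) → ℝ) j
    have h2 := mul_nonneg ht0' h1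
    linarith

lemma volume_hyperplane_zero {n : ℕ} (y : Fin (n + 1) → ℝ) {i j : Fin (n + 1)} (hij : i ≠ j)
    (hyj : y j ≠ 0) : volume {p : Fin (n + 1) → ℝ | p i * y j = p j * y i} = 0 := by
  set L : (Fin (n + 1) → ℝ) →ₗ[ℝ] ℝ :=
    y j • LinearMap.proj i - y i • LinearMap.proj j with hL
  have hLa : ∀ p : Fin (n + 1) → ℝ, L p = y j * p i - y i * p j := by
    intro p
    rw [hL]
    simp only [LinearMap.sub_apply, LinearMap.smul_apply, LinearMap.proj_apply, smul_eq_mul]
  have hset : {p : Fin (n + 1) → ℝ | p i * y j = p j * y i}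
      = (LinearMap.ker L : Set (Fin (n + 1) → ℝ)) := by
    ext p
    show p i * y j = p j * y i ↔ L p = 0
    rw [hLa]
    constructor
    · intro h; linarith
    · intro h; linarith
  rw [hset]
  apply Measure.addHaar_submodule
  intro htop
  have hmem : (Pi.single i (1 : ℝ) : Fin (n + 1) → ℝ) ∈ LinearMap.ker L := by
    rw [htop]; exact Submodule.mem_top
  rw [LinearMap.mem_ker, hLa, Pi.single_eq_same, Pi.single_eq_of_ne (Ne.symm hij), mul_one,
    mul_zero, sub_zero] at hmem
  exact hyj hmem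

lemma lintegral_profile (n : ℕ) (h : ℝ) (hh : 0 < h) :
    ∫⁻ t in Ico (0:ℝ) h, ENNReal.ofReal ((1 - t / h) ^ n) = ENNReal.ofReal (h / (n + 1)) := by
  have hcont : Continuous (fun t : ℝ => (1 - t / h) ^ n) := by fun_prop
  have hint : IntegrableOn (fun t : ℝ => (1 - t / h) ^ n) (Ico (0:ℝ) h) :=
    (hcont.integrableOn_Icc).mono_set Ico_subset_Icc_self
  have hnn : 0 ≤ᵐ[volume.restrict (Ico (0:ℝ) h)] (fun t : ℝ => (1 - t / h) ^ n) := by
    refine (ae_restrict_iff' measurableSet_Ico).mpr (Filter.Eventually.of_forall fun t ht => ?_)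
    have h1 : t / h ≤ 1 := (div_le_one hh).mpr ht.2.le
    exact pow_nonneg (by linarith) n
  rw [← ofReal_integral_eq_lintegral_ofReal hint hnn]
  congr 1
  rw [integral_Ico_eq_integral_Ioc, ← intervalIntegral.integral_of_le hh.le]
  have hderiv : ∀ x ∈ uIcc (0:ℝ) h,
      HasDerivAt (fun t : ℝ => -(h / (n + 1)) * (1 - t / h) ^ (n + 1)) ((1 - x / h) ^ n) x := by
    intro x _
    have h1 : HasDerivAt (fun t : ℝ => 1 - t / h) (-(1 / h)) x := by
      have h0 := ((hasDerivAt_id x).div_const h).const_sub 1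
      simpa using h0
    have h2 : HasDerivAt (fun t : ℝ => -(h / (n + 1)) * (1 - t / h) ^ (n + 1))
        (-(h / (n + 1)) * (((n + 1 : ℕ) : ℝ) * (1 - x / h) ^ (n + 1 - 1) * -(1 / h))) x :=
      (h1.pow (n + 1)).const_mul (-(h / (n + 1)))
    refine h2.congr_deriv ?_
    have hn : (n : ℝ) + 1 ≠ 0 := by positivity
    rw [Nat.add_sub_cancel]
    push_cast
    field_simp
  rw [intervalIntegral.integral_eq_sub_of_hasDerivAt hderiv (hcont.intervalIntegrable _ _)]
  have h0 : (1 - h / h) = 0 := by rw [div_self hh.ne', sub_self]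
  rw [h0]
  simp

lemma piFin_symm_apply {n : ℕ} (i : Fin (n + 1)) (s : ℝ) (p' : Fin n → ℝ) :
    (MeasurableEquiv.piFinSuccAbove (fun _ => ℝ) i).symm (s, p')
      = (Fin.insertNth i s p' : Fin (n + 1) → ℝ) := rfl

lemma slice_ge {n : ℕ} (M : Set (Fin (n + 1) → ℝ)) (y : Fin (n + 1) → ℝ) (i : Fin (n + 1))
    (hyi : 0 < y i) (s : ℝ) (hs : s ∈ Ico (0:ℝ) (y i)) :
    ENNReal.ofReal ((1 - s / y i) ^ n) * volume (sec M i) ≤
      volume (Prod.mk s ⁻¹'
        ((MeasurableEquiv.piFinSuccAbove (fun _ => ℝ) i).symm ⁻¹' coneOver M y i)) := by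
  have hr0 : 0 ≤ s / y i := div_nonneg hs.1 hyi.le
  have hr1 : s / y i < 1 := (div_lt_one hyi).mpr hs.2
  have hsub : (AffineMap.homothety (fun k : Fin n => y (i.succAbove k)) (1 - s / y i)) '' sec M i
      ⊆ Prod.mk s ⁻¹'
        ((MeasurableEquiv.piFinSuccAbove (fun _ => ℝ) i).symm ⁻¹' coneOver M y i) := by
    rintro _ ⟨w, hw, rfl⟩
    show (MeasurableEquiv.piFinSuccAbove (fun _ => ℝ) i).symm
      (s, AffineMap.homothety (fun k : Fin n => y (i.succAbove k)) (1 - s / y i) w)
        ∈ coneOver M y i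
    rw [piFin_symm_apply]
    refine ⟨(1 - s / y i, w), ⟨⟨by linarith, by linarith⟩, hw⟩, ?_⟩
    funext j
    revert j
    rw [i.forall_iff_succAbove]
    constructor
    · show (1 - (1 - s / y i)) * y i
          + (1 - s / y i) * (Fin.insertNth i (0 : ℝ) w : Fin (n + 1) → ℝ) i
        = (Fin.insertNth i s (AffineMap.homothety (fun k : Fin n => y (i.succAbove k))
            (1 - s / y i) w) : Fin (n + 1) → ℝ) i
      rw [ins_same, ins_same]
      field_simp
      ring
    · intro k
      show (1 - (1 - s / y i)) * y (i.succAbove k)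
          + (1 - s / y i) * (Fin.insertNth i (0 : ℝ) w : Fin (n + 1) → ℝ) (i.succAbove k)
        = (Fin.insertNth i s (AffineMap.homothety (fun k : Fin n => y (i.succAbove k))
            (1 - s / y i) w) : Fin (n + 1) → ℝ) (i.succAbove k)
      rw [ins_succ, ins_succ]
      simp only [AffineMap.homothety_apply, vsub_eq_sub, vadd_eq_add, Pi.add_apply,
        Pi.smul_apply, Pi.sub_apply, smul_eq_mul]
      ring
  calc ENNReal.ofReal ((1 - s / y i) ^ n) * volume (sec M i)
      = volume ((AffineMap.homothety (fun k : Fin n => y (i.succAbove k)) (1 - s / y i))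
          '' sec M i) := by
        rw [Measure.addHaar_image_homothety, Module.finrank_fin_fun,
          abs_of_nonneg (pow_nonneg (by linarith) n)]
    _ ≤ _ := measure_mono hsub

lemma volume_coneOver_ge {n : ℕ} {M : Set (Fin (n + 1) → ℝ)} (hM : IsCompact M)
    (y : Fin (n + 1) → ℝ) (i : Fin (n + 1)) (hyi : 0 < y i) :
    ENNReal.ofReal (y i / (n + 1)) * volume (sec M i) ≤ volume (coneOver M y i) := by
  have hmeas : MeasurableSet (coneOver M y i) :=
    (isCompact_coneOver hM y i).isClosed.measurableSet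
  have hmp := volume_preserving_piFinSuccAbove (fun _ : Fin (n + 1) => ℝ) i
  have hvol : (volume : Measure (ℝ × (Fin n → ℝ)))
      ((MeasurableEquiv.piFinSuccAbove (fun _ => ℝ) i).symm ⁻¹' coneOver M y i)
        = volume (coneOver M y i) :=
    (hmp.symm (MeasurableEquiv.piFinSuccAbove (fun _ => ℝ) i)).measure_preimage
      hmeas.nullMeasurableSet
  rw [← hvol, Measure.volume_eq_prod,
    Measure.prod_apply ((MeasurableEquiv.piFinSuccAbove (fun _ => ℝ) i).symm.measurable hmeas)]
  have hmf : Measurable (fun t : ℝ => ENNReal.ofReal ((1 - t / y i) ^ n)) := by fun_prop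
  calc ENNReal.ofReal (y i / (n + 1)) * volume (sec M i)
      = (∫⁻ t in Ico (0:ℝ) (y i), ENNReal.ofReal ((1 - t / y i) ^ n)) * volume (sec M i) := by
        rw [lintegral_profile n (y i) hyi]
    _ = ∫⁻ t in Ico (0:ℝ) (y i), ENNReal.ofReal ((1 - t / y i) ^ n) * volume (sec M i) := by
        rw [lintegral_mul_const _ hmf]
    _ ≤ ∫⁻ t in Ico (0:ℝ) (y i), volume (Prod.mk t ⁻¹'
          ((MeasurableEquiv.piFinSuccAbove (fun _ => ℝ) i).symm ⁻¹' coneOver M y i)) :=
        setLIntegral_mono' measurableSet_Ico (fun t ht => slice_ge M y i hyi t ht)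
    _ ≤ ∫⁻ t, volume (Prod.mk t ⁻¹'
          ((MeasurableEquiv.piFinSuccAbove (fun _ => ℝ) i).symm ⁻¹' coneOver M y i)) :=
        setLIntegral_le_lintegral _ _

/-- **Cone inequality for compact convex sets in the positive orthant.** -/
theorem cone_ineq_convex (n : ℕ) (M : Set (Fin (n + 1) → ℝ)) (hcomp : IsCompact M)
    (hconv : Convex ℝ M) (hnn : ∀ p ∈ M, ∀ i, 0 ≤ p i) (y : Fin (n + 1) → ℝ) (hy : y ∈ M) :
    ∑ i, ENNReal.ofReal (y i) * volume (sec M i) ≤ ((n : ENNReal) + 1) * volume M := by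
  classical
  set C : Fin (n + 1) → Set (Fin (n + 1) → ℝ) :=
    fun i => if 0 < y i then coneOver M y i else ∅ with hC
  have hCmeas : ∀ i, MeasurableSet (C i) := by
    intro i
    by_cases h : 0 < y i
    · have e : C i = coneOver M y i := if_pos h
      rw [e]
      exact (isCompact_coneOver hcomp y i).isClosed.measurableSet
    · have e : C i = ∅ := if_neg h
      rw [e]
      exact MeasurableSet.empty
  have hCsub : ∀ i, C i ⊆ M := by
    intro i
    by_cases h : 0 < y i
    · have e : C i = coneOver M y i := if_pos h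
      rw [e]
      exact coneOver_subset hconv hy i
    · have e : C i = ∅ := if_neg h
      rw [e]
      exact empty_subset _
  have hCge : ∀ i, ENNReal.ofReal (y i / (n + 1)) * volume (sec M i) ≤ volume (C i) := by
    intro i
    by_cases h : 0 < y i
    · have e : C i = coneOver M y i := if_pos h
      rw [e]
      exact volume_coneOver_ge hcomp y i h
    · have h0 : y i = 0 := le_antisymm (not_lt.1 h) (hnn y hy i)
      rw [h0, zero_div, ENNReal.ofReal_zero, zero_mul]
      exact bot_le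
  have hdisj : Pairwise (Function.onFun (AEDisjoint volume) C) := by
    intro i j hij
    show volume (C i ∩ C j) = 0
    by_cases hi : 0 < y i
    · by_cases hj : 0 < y j
      · have ei : C i = coneOver M y i := if_pos hi
        have ej : C j = coneOver M y j := if_pos hj
        rw [ei, ej]
        apply measure_mono_null _ (volume_hyperplane_zero y hij hj.ne')
        rintro p ⟨hpi, hpj⟩
        obtain ⟨t, ht0, ht1, e1, g1⟩ := coneOver_coords hnn hpi
        obtain ⟨t', ht0', ht1', e2, g2⟩ := coneOver_coords hnn hpj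
        show p i * y j = p j * y i
        have k1 := mul_le_mul_of_nonneg_right (g1 j) hi.le
        have k2 := mul_le_mul_of_nonneg_right (g2 i) hj.le
        apply le_antisymm
        · rw [e1]; nlinarith
        · rw [e2]; nlinarith
      · have ej : C j = ∅ := if_neg hj
        rw [ej, inter_empty, measure_empty]
    · have ei : C i = ∅ := if_neg hi
      rw [ei, empty_inter, measure_empty]
  have hU : volume (⋃ i, C i) = ∑ i, volume (C i) := by
    rw [measure_iUnion₀ hdisj (fun i => (hCmeas i).nullMeasurableSet), tsum_fintype]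
  have hUle : volume (⋃ i, C i) ≤ volume M := measure_mono (iUnion_subset hCsub)
  have h5 : ((n : ENNReal) + 1) = ENNReal.ofReal ((n : ℝ) + 1) := by
    rw [ENNReal.ofReal_add (by positivity) (by norm_num), ENNReal.ofReal_natCast,
      ENNReal.ofReal_one]
  calc ∑ i, ENNReal.ofReal (y i) * volume (sec M i)
      = ∑ i, ((n : ENNReal) + 1) * (ENNReal.ofReal (y i / (n + 1)) * volume (sec M i)) := by
        apply Finset.sum_congr rfl
        intro i _
        rw [← mul_assoc, h5, ← ENNReal.ofReal_mul (by positivity)]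
        congr 2
        field_simp
    _ = ((n : ENNReal) + 1) * ∑ i, ENNReal.ofReal (y i / (n + 1)) * volume (sec M i) := by
        rw [Finset.mul_sum]
    _ ≤ ((n : ENNReal) + 1) * ∑ i, volume (C i) := by
        have hsum := Finset.sum_le_sum (fun (i : Fin (n + 1)) (_ : i ∈ Finset.univ) => hCge i)
        gcongr
    _ = ((n : ENNReal) + 1) * volume (⋃ i, C i) := by rw [hU]
    _ ≤ ((n : ENNReal) + 1) * volume M := by gcongr

end Vale.Agent.Lib.P248.H34
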