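import Mathlib
import Vale.Agent.Lib.P248.helper1.ConeAux
import Vale.Agent.Lib.P248.helper81.ModelVol

/-!
# P248 (helper34, pool job P248-CQC2b): the volume of the slab model, upper bound

The section of the slab model `polarModel D ζ τ` at height `s` is empty outside the closed
interval from `-1/τ` to `1/(1-τ)` and is contained in `(1 + τ s) • polarAt D ζ` for `s` in the
half-open interval; hence the volume of the model is at most
`|polarAt D ζ| / ((n+1) τ (1-τ)^(n+1))`.
-/

namespace Vale.Agent.Lib.P248.H34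

open MeasureTheory Set
open scoped ENNReal Pointwise
open Vale.Agent.Lib.P227 Vale.Agent.Lib.P248.H1

/-- Outside the closed interval the section of the slab model is empty. -/
theorem sec_polarModel_empty {n : ℕ} (D : Set (EuclideanSpace ℝ (Fin n)))
    (ζ : EuclideanSpace ℝ (Fin n)) (τ s : ℝ) (hs : s ∉ Icc (-1 / τ) (1 / (1 - τ))) :
    sec s (polarModel D ζ τ) = ∅ := by
  rw [Set.eq_empty_iff_forall_notMem]
  intro w hw
  have hw' : ecomb s w ∈ polarModel D ζ τ := hw
  obtain ⟨h1, h2, _⟩ := hw'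
  rw [ecomb_zero] at h1 h2
  exact hs ⟨h1, h2⟩

/-- At heights where `1 + τ s` is positive the section of the slab model is contained in a
dilate of the polar of the base. -/
theorem sec_polarModel_subset {n : ℕ} (D : Set (EuclideanSpace ℝ (Fin n)))
    (ζ : EuclideanSpace ℝ (Fin n)) (τ s : ℝ) (hpos : 0 < 1 + τ * s) :
    sec s (polarModel D ζ τ) ⊆ (1 + τ * s) • polarAt D ζ := by
  intro w hw
  have hw' : ecomb s w ∈ polarModel D ζ τ := hw
  obtain ⟨_, _, h3⟩ := hw'
  rw [Set.mem_smul_set]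
  refine ⟨(1 + τ * s)⁻¹ • w, ?_, ?_⟩
  · show ∀ x ∈ D, inner ℝ (x - ζ) ((1 + τ * s)⁻¹ • w) ≤ 1
    intro d hd
    have h4 := h3 d hd
    rw [ecomb_zero, etail_ecomb] at h4
    rw [inner_smul_right]
    calc (1 + τ * s)⁻¹ * inner ℝ (d - ζ) w
        ≤ (1 + τ * s)⁻¹ * (1 + τ * s) :=
          mul_le_mul_of_nonneg_left h4 (inv_nonneg.mpr hpos.le)
      _ = 1 := inv_mul_cancel₀ hpos.ne'
  · rw [smul_smul, mul_inv_cancel₀ hpos.ne', one_smul]

theorem vol_polarModel_le {n : ℕ} (D : Set (EuclideanSpace ℝ (Fin n)))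
    (ζ : EuclideanSpace ℝ (Fin n)) (τ : ℝ) (hτ0 : 0 < τ) (hτ1 : τ < 1) :
    volume (polarModel D ζ τ)
      ≤ ENNReal.ofReal (1 / ((n + 1) * τ * (1 - τ) ^ (n + 1))) * volume (polarAt D ζ) := by
  have hmeas : Measurable fun s : ℝ => ENNReal.ofReal ((1 + τ * s) ^ n) := by fun_prop
  -- pointwise bound off the single point `-1/τ`
  have hae : ∀ᵐ s : ℝ, volume (sec s (polarModel D ζ τ))
      ≤ (Ioc (-1 / τ) (1 / (1 - τ))).indicator
          (fun s : ℝ => ENNReal.ofReal ((1 + τ * s) ^ n) * volume (polarAt D ζ)) s := by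
    rw [ae_iff]
    refine measure_mono_null ?_ (Real.volume_singleton (a := -1 / τ))
    intro s hs
    rw [Set.mem_singleton_iff]
    by_contra hne
    apply hs
    by_cases hmem : s ∈ Ioc (-1 / τ) (1 / (1 - τ))
    · rw [Set.indicator_of_mem hmem]
      have h1 : -1 / τ < s := hmem.1
      have hpos : 0 < 1 + τ * s := by
        rw [div_lt_iff₀ hτ0] at h1
        nlinarith
      have hvol : volume ((1 + τ * s) • polarAt D ζ) =
          ENNReal.ofReal ((1 + τ * s) ^ n) * volume (polarAt D ζ) := by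
        rw [Measure.addHaar_smul, finrank_euclideanSpace_fin,
          abs_of_nonneg (pow_nonneg hpos.le n)]
      rw [← hvol]
      exact measure_mono (sec_polarModel_subset D ζ τ s hpos)
    · rw [Set.indicator_of_notMem hmem]
      have hnot : s ∉ Icc (-1 / τ) (1 / (1 - τ)) := by
        intro hI
        apply hmem
        exact ⟨lt_of_le_of_ne hI.1 (fun h => hne h.symm), hI.2⟩
      rw [sec_polarModel_empty D ζ τ s hnot, measure_empty]
  calc volume (polarModel D ζ τ)
      = ∫⁻ s, volume (sec s (polarModel D ζ τ)) :=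
        volume_eq_lintegral_sec (H81.measurableSet_polarModel D ζ τ)
    _ ≤ ∫⁻ s, (Ioc (-1 / τ) (1 / (1 - τ))).indicator
          (fun s : ℝ => ENNReal.ofReal ((1 + τ * s) ^ n) * volume (polarAt D ζ)) s :=
        lintegral_mono_ae hae
    _ = ∫⁻ s in Ioc (-1 / τ) (1 / (1 - τ)),
          ENNReal.ofReal ((1 + τ * s) ^ n) * volume (polarAt D ζ) :=
        lintegral_indicator measurableSet_Ioc _
    _ = (∫⁻ s in Ioc (-1 / τ) (1 / (1 - τ)), ENNReal.ofReal ((1 + τ * s) ^ n)) *
          volume (polarAt D ζ) := lintegral_mul_const _ hmeas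
    _ = (∫⁻ s in Ioo (-1 / τ) (1 / (1 - τ)), ENNReal.ofReal ((1 + τ * s) ^ n)) *
          volume (polarAt D ζ) := by
        rw [setLIntegral_congr Ioo_ae_eq_Ioc.symm]
    _ = ENNReal.ofReal (1 / ((n + 1) * τ * (1 - τ) ^ (n + 1))) * volume (polarAt D ζ) := by
        rw [H81.lintegral_slab n τ hτ0 hτ1]

end Vale.Agent.Lib.P248.H34
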